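import Vale.Agent.P060.Defs
import Vale.Agent.N060.Defs
import Vale.Agent.N060.Main

namespace Vale.Agent.Results.P060.A0DenseMinors

open Vale.Agent.P060 Vale.Agent.N060

/-- **Large chromatic number does not force almost complete minors.**  (1) For every
`γ > 0` and every large `t` there is a finite graph with independence number at most two which cannot be coloured with
`(1 + 2 * 10 ^ (-13)) t` colours and has no minor `H` on `t` vertices with at most `t ^ (2 - γ)` non-edges.  (2) For every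
`γ > 0` and every large `n` there is a graph on exactly `n` vertices with independence number at most two which has no
minor `H` on at least `(1 / 2 - 10 ^ (-13)) n` vertices with at most `n ^ (2 - γ)` non-edges. -/
theorem result :
    (∀ γ : ℝ, 0 < γ → ∃ t₀ : ℕ, ∀ t : ℕ, t₀ ≤ t → ∃ (n : ℕ) (G : SimpleGraph (Fin n)),
      G.indepNum ≤ 2 ∧ (∀ k : ℕ, G.Colorable k → (1 + 2 / 10 ^ 13) * (t : ℝ) < k) ∧
      ∀ H : SimpleGraph (Fin t), (Hᶜ.edgeSet.ncard : ℝ) ≤ (t : ℝ) ^ (2 - γ) → ¬ HasMinor G H) ∧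
    (∀ γ : ℝ, 0 < γ → ∃ n₀ : ℕ, ∀ n : ℕ, n₀ ≤ n → ∃ G : SimpleGraph (Fin n),
      G.indepNum ≤ 2 ∧ ∀ (t : ℕ) (H : SimpleGraph (Fin t)),
        (1 / 2 - 1 / 10 ^ 13) * (n : ℝ) ≤ t → (Hᶜ.edgeSet.ncard : ℝ) ≤ (n : ℝ) ^ (2 - γ) →
        ¬ HasMinor G H) :=
  ⟨HW.dense_t, HW.dense_n⟩

end Vale.Agent.Results.P060.A0DenseMinors
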