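import Vale.Agent.N060F.Main

namespace Vale.Agent.Results.P060.A0Fractional

open Vale.Agent.N060F

/-- **The weakest fractional form of Hadwiger's conjecture is false.**
(1) `h ≤ h_f`, `χ_f ≤ χ`, and `h(G[K_r]) ≤ r h_f(G)`.  (2) For every large `n` some graph on `n` vertices with
independence number at most two has `h_f < (1 / 2 - 10 ^ (-6)) n`, `χ_f ≥ n / 2`, and all its clique blow-ups have
`h < χ`.  (3) For every large `t` some graph without `K_(t+1)` minor has `h_f ≤ t` and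
`χ_f > (1 + 2 * 10 ^ (-6)) t`. -/
theorem result :
    (∀ (V : Type) [Fintype V] (G : SimpleGraph V), (had G : ℝ) ≤ hadF G ∧
      (∀ k : ℕ, G.Colorable k → chiF G ≤ k) ∧
      ∀ r : ℕ, 1 ≤ r → (had (blow G r) : ℝ) ≤ r * hadF G) ∧
    (∃ n₀ : ℕ, ∀ n : ℕ, n₀ ≤ n → ∃ G : SimpleGraph (Fin n), G.indepNum ≤ 2 ∧
      hadF G < (1 / 2 - 1 / 10 ^ 6) * n ∧ (n : ℝ) / 2 ≤ chiF G ∧
      ∀ r : ℕ, 1 ≤ r → (had (blow G r) : ℕ∞) < (blow G r).chromaticNumber) ∧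
    (∃ t₀ : ℕ, ∀ t : ℕ, t₀ ≤ t → ∃ (n : ℕ) (G : SimpleGraph (Fin n)), G.indepNum ≤ 2 ∧
      ¬ CliqueMinor G (t + 1) ∧ hadF G ≤ t ∧ (1 + 2 / 10 ^ 6) * (t : ℝ) < chiF G) :=
  ⟨fun _ _ G => ⟨minor_le_hadF (minor_had G), fun _ => chiF_le, fun _ => had_blow G⟩, frac_n, frac_t⟩

end Vale.Agent.Results.P060.A0Fractional
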